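import Vale.Agent.P287D.Pr.Lr

/-!
# P283R, block BER: one general member of a system
-/

set_option linter.all false

open Set

noncomputable section

namespace Vale.Agent.P283R.Be

open Vale.Agent.P287D Vale.Agent.P287D.Pr Vale.Agent.P287D.Ba

variable {n : ℕ} {K : Type} [Field K] [Algebra ℂ K] {Γ Λ : BD K} {B : Set (BD K)}
  {T₀ S : Set (Pl K)} {u : Finset K}

/-- a general member is harmless for all pairs of a finite dimensional family at once -/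
theorem ber_all (hK : FF K (n + 1)) (hT : T₀.Finite) (hB : B.Finite) (hc : ∀ β ∈ B, β ∈ Car K)
    (hu : Nz u) : ∃ f ∈ Submodule.span ℂ (u : Set K), f ≠ 0 ∧
      (∀ P ∈ T₀, (dv f + mx u) P = 0) ∧ ∀ Γ ∈ Submodule.span ℝ B, ∀ Q,
        (∀ P, (∀ Λ ∈ Submodule.span ℝ B, CLe Λ Q P) → -1 ≤ dsc (n + 1) Γ P) →
          (dv f + mx u) Q ≤ dsc (n + 1) Γ Q + 1 :=
  let ⟨_, _, _, _, _, _, f, l, a, b, c, d, e, g, g0, i, j⟩ := ber1 hK hT hB hc hu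
  ⟨f, g, g0, fun P p => i.2 P (l.on P ((a P).2 (.inl (c P p)))) (Finset.disjoint_left.1 b (c P p)),
    fun Γ hΓ Q k => by
      have := le_ld l a b (d.sub (Sup.span l.smp e hΓ)) i zero_le_one (fun P p => (j P p).le)
        (Q := Q) fun P p q =>
          k P fun _ r => l.cle (l.on P ((a P).2 (.inl p))) q (Sup.span l.smp e r).1
      linarith⟩

/-- on a set of places which is closed under generalisation -/
theorem ber_on (hK : FF K (n + 1)) (hT : T₀.Finite) (hΓ : Γ ∈ Car K) (hΛ : Λ ∈ Car K)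
    (up : ∀ Q ∈ S, ∀ P, CLe Λ Q P → P ∈ S) (k : ∀ Q ∈ S, -1 ≤ dsc (n + 1) Γ Q) (hu : Nz u) :
    ∃ f ∈ Submodule.span ℂ (u : Set K), f ≠ 0 ∧ (∀ P ∈ T₀, (dv f + mx u) P = 0) ∧
      ∀ Q ∈ S, (dv f + mx u) Q ≤ dsc (n + 1) Γ Q + 1 :=
  let ⟨f, a, b, c, d⟩ := ber_all hK hT (toFinite {Γ, Λ})
    (forall_mem_insert.2 ⟨hΓ, forall_eq.2 hΛ⟩) hu
  ⟨f, a, b, c, fun Q hQ => d Γ (Submodule.subset_span (.inl rfl)) Q fun P h =>
    k P (up Q hQ P (h Λ (Submodule.subset_span (.inr rfl))))⟩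

/-- the log discrepancy drops at most by the factor `1 - η` from the system to its member -/
theorem ber_ge (hK : FF K (n + 1)) (hT : T₀.Finite) (hΓ : Γ ∈ Car K) (hΛ : Λ ∈ Car K)
    (up : ∀ Q ∈ S, ∀ P, CLe Λ Q P → P ∈ S) {η : ℝ} (h0 : 0 ≤ η)
    (k : ∀ Q ∈ S, -1 ≤ dsc (n + 1) (Γ - η • mx u) Q) (hu : Nz u) :
    ∃ f ∈ Submodule.span ℂ (u : Set K), f ≠ 0 ∧ (∀ P ∈ T₀, (dv f + mx u) P = 0) ∧
      ∀ Q ∈ S, (1 - η) * (dsc (n + 1) (Γ - η • mx u) Q + 1) ≤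
        dsc (n + 1) (Γ + η • dv f) Q + 1 := by
  obtain ⟨f, a, b, c, d⟩ := ber_on hK hT
    (sub_mem hΓ ((Car K).smul_mem η (mx_mem_Car u))) hΛ up k hu
  refine ⟨f, a, b, c, fun Q hQ => ?_⟩
  have e : Γ + η • dv f = (Γ - η • mx u) + η • (dv f + mx u) := by module
  rw [e, dsc_add_smul]
  linarith [mul_le_mul_of_nonneg_left (d Q hQ) h0]

/-- **BER**: if the system with the exponent `η < 1` is klt, so is a member -/
theorem ber_klt (hK : FF K (n + 1)) (hΓ : Γ ∈ Car K) (hΛ : Λ ∈ Car K)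
    (up : ∀ Q ∈ S, ∀ P, CLe Λ Q P → P ∈ S) {η : ℝ} (h0 : 0 ≤ η) (h1 : η < 1)
    (k : ∀ Q ∈ S, -1 < dsc (n + 1) (Γ - η • mx u) Q) (hu : Nz u) :
    ∃ f ∈ Submodule.span ℂ (u : Set K), f ≠ 0 ∧
      ∀ Q ∈ S, -1 < dsc (n + 1) (Γ + η • dv f) Q := by
  obtain ⟨f, a, b, -, d⟩ := ber_ge hK finite_empty hΓ hΛ up h0 (fun Q q => (k Q q).le) hu
  refine ⟨f, a, b, fun Q hQ => ?_⟩
  have := mul_pos (sub_pos.2 h1) (show 0 < dsc (n + 1) (Γ - η • mx u) Q + 1 by linarith [k Q hQ])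
  linarith [d Q hQ]

end Vale.Agent.P283R.Be
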